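import Vale.Agent.Lib.P243D.Defs
import Vale.Agent.Lib.P243.Rel.Fan
import Vale.Agent.Lib.P243.Abs.Main

/-! # P243: from cylinders over subspaces to cylinders in frames -/

open MeasureTheory
open scoped BigOperators ENNReal

namespace Vale.Agent.P243D

open Vale.Agent.P243 (Plane projPlane Cylinder planeArea)

theorem exists_frame {u : E3} (hu : ‖u‖ = 1) : ∃ b : Frame, b 2 = u := by
  have hv : Orthonormal ℝ (({2} : Set (Fin 3)).domRestrict (fun _ : Fin 3 => u)) := by
    refine ⟨fun _ => hu, ?_⟩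
    rintro ⟨i, hi⟩ ⟨j, hj⟩ hij
    exact absurd (Subtype.ext ((Set.mem_singleton_iff.1 hi).trans
      (Set.mem_singleton_iff.1 hj).symm)) hij
  obtain ⟨b, hb⟩ := hv.exists_orthonormalBasis_extension_of_card_eq (by simp)
  exact ⟨b, hb 2 rfl⟩

theorem mem_plane (b : Frame) {i : Fin 3} (hi : i ≠ 2) : b i ∈ Plane (b 2) := by
  rw [Submodule.mem_orthogonal_singleton_iff_inner_right]
  exact b.orthonormal.2 hi.symm

theorem finrank_plane (b : Frame) : Module.finrank ℝ (Plane (b 2)) = 2 := by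
  have hf : Fact (Module.finrank ℝ E3 = 2 + 1) := ⟨by simp⟩
  refine Submodule.finrank_orthogonal_span_singleton ?_
  intro h
  have := b.orthonormal.1 2
  rw [h, norm_zero] at this
  exact zero_ne_one this

theorem exists_planeBasis (b : Frame) : ∃ c : OrthonormalBasis (Fin 2) ℝ (Plane (b 2)),
    (c 0 : E3) = b 0 ∧ (c 1 : E3) = b 1 := by
  obtain ⟨v, hv⟩ : ∃ v : Fin 2 → Plane (b 2), v = ![⟨b 0, mem_plane b (by decide)⟩,
    ⟨b 1, mem_plane b (by decide)⟩] := ⟨_, rfl⟩
  have h0 : (v 0 : E3) = b 0 := by rw [hv]; rfl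
  have h1 : (v 1 : E3) = b 1 := by rw [hv]; rfl
  have ho : Orthonormal ℝ v := by
    have h2 : Orthonormal ℝ ((Plane (b 2)).subtypeₗᵢ ∘ v) := by
      have h3 : (Plane (b 2)).subtypeₗᵢ ∘ v = b ∘ ![(0 : Fin 3), 1] := by
        funext i
        fin_cases i
        · exact h0
        · exact h1
      rw [h3]
      exact b.orthonormal.comp _ (by decide)
    exact ((Plane (b 2)).subtypeₗᵢ.orthonormal_comp_iff).1 h2
  obtain ⟨c, hc⟩ := Orthonormal.exists_orthonormalBasis_extension_of_card_eq (v := v) (s := Set.univ)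
    (by rw [finrank_plane]; simp) (ho.comp _ Subtype.val_injective)
  exact ⟨c, by rw [hc 0 trivial, h0], by rw [hc 1 trivial, h1]⟩

/-- the coordinates in the plane -/
noncomputable def crd (b : Frame) (y : Plane (b 2)) : ℝ × ℝ :=
  (inner ℝ (b 0) (y : E3), inner ℝ (b 1) (y : E3))

theorem crd_proj (b : Frame) (x : E3) :
    crd b (projPlane (b 2) x) = (inner ℝ (b 0) x, inner ℝ (b 1) x) := by
  obtain ⟨c, hc⟩ := Vale.Agent.P243.projPlane_sub (b 2) x
  have h0 : inner ℝ (b 0) (b 2) = 0 := b.orthonormal.2 (by decide)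
  have h1 : inner ℝ (b 1) (b 2) = 0 := b.orthonormal.2 (by decide)
  unfold crd
  conv_rhs => rw [hc]
  rw [inner_add_right, inner_add_right, inner_smul_right, inner_smul_right, h0, h1, mul_zero,
    add_zero, add_zero]

theorem exists_crd (b : Frame) : ∃ e : Plane (b 2) ≃ᵐ ℝ × ℝ, MeasurePreserving e volume volume ∧
    ∀ y, e y = crd b y := by
  obtain ⟨c, h0, h1⟩ := exists_planeBasis b
  refine ⟨c.repr.toMeasurableEquiv.trans
    ((MeasurableEquiv.toLp 2 (Fin 2 → ℝ)).symm.trans MeasurableEquiv.finTwoArrow), ?_, fun y => ?_⟩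
  · exact (volume_preserving_finTwoArrow ℝ).comp
      ((PiLp.volume_preserving_ofLp (Fin 2)).comp c.measurePreserving_repr)
  · have e0 : c.repr y 0 = inner ℝ (b 0) (y : E3) := by
      rw [c.repr_apply_apply, ← h0]
      rfl
    have e1 : c.repr y 1 = inner ℝ (b 1) (y : E3) := by
      rw [c.repr_apply_apply, ← h1]
      rfl
    unfold crd
    rw [← e0, ← e1]
    rfl

theorem volume_shadow (b : Frame) (K : Set E3) :
    volume (shadow b K) = planeArea (b 2) (projPlane (b 2) '' K) := by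
  obtain ⟨e, he, hec⟩ := exists_crd b
  have h1 : e ⁻¹' shadow b K = projPlane (b 2) '' K := by
    ext y
    constructor
    · rintro ⟨x, hx, hxy⟩
      refine ⟨x, hx, ?_⟩
      apply e.injective
      rw [← hxy, hec, crd_proj]
    · rintro ⟨x, hx, rfl⟩
      refine ⟨x, hx, ?_⟩
      rw [hec, crd_proj]
  rw [← he.measure_preimage_equiv, h1]

theorem shadow_toReal (b : Frame) (K : Set E3) :
    (volume (shadow b K)).toReal = Vale.Agent.P243.shadow (b 2) K := by
  rw [volume_shadow]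
  rfl

/-- a cylinder over a subspace as a cylinder in a frame -/
theorem exists_cyl (C : Cylinder E3) (hC : MeasurableSet C.base) : ∃ (b : Frame) (B : Set (ℝ × ℝ)),
    MeasurableSet B ∧ volume B < ⊤ ∧ C.carrier ⊆ cyl b B ∧ (volume B).toReal = C.area ∧
      ∀ K, (volume (shadow b K)).toReal = Vale.Agent.P243.shadow C.u K := by
  obtain ⟨u, hu, base, hb, hf⟩ := C
  obtain ⟨b, rfl⟩ := exists_frame hu
  obtain ⟨e, he, hec⟩ := exists_crd b
  have hC' : MeasurableSet base := hC
  have hvol : volume (e '' base) = volume base := by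
    rw [← he.measure_preimage_equiv, Set.preimage_image_eq _ e.injective]
  refine ⟨b, e '' base, e.measurableSet_image.2 hC', ?_, ?_, ?_, fun K => shadow_toReal b K⟩
  · rw [hvol]
    exact lt_top_iff_ne_top.2 hf
  · rintro x ⟨y, hy, t, rfl⟩
    refine ⟨e y, ⟨y, hy, rfl⟩, t, ?_⟩
    rw [hec]
    congr 1
    have h1 := b.sum_repr' (y : E3)
    rw [Fin.sum_univ_three] at h1
    have h2 : inner ℝ (b 2) (y : E3) = 0 := Vale.Agent.P243.mem_plane_inner y
    rw [h2, zero_smul, add_zero] at h1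
    exact h1.symm
  · rw [hvol]
    rfl

theorem mkCyl_meas (L : E3 →ₗ[ℝ] (Fin 2 → ℝ)) (w : E3) (hw : w ≠ 0) (hLw : L w = 0)
    (hker : ∀ x, L x = 0 → ∃ c : ℝ, x = c • w) (hsurj : Function.Surjective L)
    (D : Set (Fin 2 → ℝ)) (hD : IsCompact D) :
    MeasurableSet (Vale.Agent.P243.mkCyl L w hw hLw hker hsurj D hD).base :=
  hD.measurableSet.preimage
    (Vale.Agent.P243.planeEquiv L w hw hLw hker hsurj).continuous.measurable

theorem fans_meas (N : ℕ) (i : Fin (N + N)) :
    MeasurableSet (Vale.Agent.P243.fans N i).base := by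
  refine Fin.addCases (motive := fun i => MeasurableSet (Vale.Agent.P243.fans N i).base)
    (fun k => ?_) (fun k => ?_) i
  · unfold Vale.Agent.P243.fans
    rw [Fin.append_left]
    exact mkCyl_meas _ _ _ _ _ _ _ _
  · unfold Vale.Agent.P243.fans
    rw [Fin.append_right]
    exact mkCyl_meas _ _ _ _ _ _ _ _

theorem fansR_meas (N : ℕ) (i : Fin (N + N)) :
    MeasurableSet (Vale.Agent.P243.fansR N i).base := by
  refine Fin.addCases (motive := fun i => MeasurableSet (Vale.Agent.P243.fansR N i).base)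
    (fun k => ?_) (fun k => ?_) i
  · unfold Vale.Agent.P243.fansR
    rw [Fin.append_left]
    exact mkCyl_meas _ _ _ _ _ _ _ _
  · unfold Vale.Agent.P243.fansR
    rw [Fin.append_right]
    exact mkCyl_meas _ _ _ _ _ _ _ _

/-- finite families -/
theorem exists_family {m : ℕ} (C : Fin m → Cylinder E3) (hC : ∀ i, MeasurableSet (C i).base)
    {K : Set E3} (hK : K ⊆ ⋃ i, (C i).carrier) :
    ∃ (b : Fin m → Frame) (B : Fin m → Set (ℝ × ℝ)), IsCover K b B ∧
      (∀ i, volume (B i) = ENNReal.ofReal (C i).area) ∧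
      ∀ i, (volume (shadow (b i) K)).toReal = Vale.Agent.P243.shadow (C i).u K := by
  choose b B h1 h2 h3 h4 h5 using fun i => exists_cyl (C i) (hC i)
  refine ⟨b, B, ⟨fun i => ⟨h1 i, h2 i⟩, hK.trans (Set.iUnion_mono h3)⟩, fun i => ?_,
    fun i => h5 i K⟩
  rw [← h4 i, ENNReal.ofReal_toReal (h2 i).ne]

theorem area_nonneg (C : Cylinder E3) : 0 ≤ C.area := ENNReal.toReal_nonneg

theorem ofReal_Amin_le (K : Set E3) : ENNReal.ofReal (Vale.Agent.P243.Amin K) ≤ Amin K := by
  refine le_iInf fun b => ?_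
  have h1 : Vale.Agent.P243.Amin K ≤ Vale.Agent.P243.shadow (b 2) K := by
    refine csInf_le ⟨0, ?_⟩ ⟨b 2, b.orthonormal.1 2, rfl⟩
    rintro _ ⟨u, _, rfl⟩
    exact ENNReal.toReal_nonneg
  rw [← shadow_toReal] at h1
  exact (ENNReal.ofReal_le_ofReal h1).trans ENNReal.ofReal_toReal_le

theorem Amin_lt_top {K : Set E3} (h : 0 < Vale.Agent.P243.Amin K) : Amin K ≠ ⊤ := by
  obtain ⟨b, -⟩ : ∃ b : Frame, b 2 = EuclideanSpace.single 0 1 := exists_frame (by simp)
  have h1 : Vale.Agent.P243.Amin K ≤ Vale.Agent.P243.shadow (b 2) K := by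
    refine csInf_le ⟨0, ?_⟩ ⟨b 2, b.orthonormal.1 2, rfl⟩
    rintro _ ⟨u, _, rfl⟩
    exact ENNReal.toReal_nonneg
  rw [← shadow_toReal] at h1
  have h2 : volume (shadow b K) ≠ ⊤ := by
    intro h3
    rw [h3, ENNReal.toReal_top] at h1
    exact absurd (h.trans_le h1) (lt_irrefl _)
  exact (lt_of_le_of_lt (iInf_le _ b) (lt_top_iff_ne_top.2 h2)).ne

theorem sum_ofReal {m : ℕ} {a : Fin m → ℝ} (ha : ∀ i, 0 ≤ a i) :
    ∑ i, ENNReal.ofReal (a i) = ENNReal.ofReal (∑ i, a i) :=
  (ENNReal.ofReal_sum_of_nonneg fun i _ => ha i).symm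

/-- the covering with small total area -/
theorem cover_abs : ∃ (m : ℕ) (b : Fin m → Frame) (B : Fin m → Set (ℝ × ℝ)),
    IsCover Vale.Agent.P243.tet b B ∧
      ∑ i, volume (B i) ≤ 4999 / 10000 * Amin Vale.Agent.P243.tet := by
  obtain ⟨b, B, h1, h2, -⟩ := exists_family (Vale.Agent.P243.fans 10000)
    (fans_meas 10000) (Vale.Agent.P243.fans_cover 10000 (by norm_num))
  refine ⟨_, b, B, h1, ?_⟩
  rw [Finset.sum_congr rfl fun i _ => h2 i, sum_ofReal fun i => area_nonneg _]
  have h3 := ENNReal.ofReal_le_ofReal Vale.Agent.P243.fans_total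
  rw [ENNReal.ofReal_mul (by norm_num)] at h3
  refine h3.trans ?_
  have h4 : ENNReal.ofReal (4999 / 10000) = 4999 / 10000 := by
    rw [ENNReal.ofReal_div_of_pos (by norm_num)]
    norm_num
  rw [h4]
  gcongr
  exact ofReal_Amin_le _

/-- the covering with small relative area -/
theorem cover_rel : ∃ (m : ℕ) (b : Fin m → Frame) (B : Fin m → Set (ℝ × ℝ)),
    IsCover Vale.Agent.P243.tet b B ∧ rel Vale.Agent.P243.tet b B ≤ 434 / 1000 := by
  obtain ⟨b, B, h1, h2, h3⟩ := exists_family (Vale.Agent.P243.fansR 10000)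
    (fansR_meas 10000) (Vale.Agent.P243.fansR_cover 10000 (by norm_num))
  refine ⟨_, b, B, h1, ?_⟩
  have h4 : ∀ i, volume (B i) / volume (shadow (b i) Vale.Agent.P243.tet) =
      ENNReal.ofReal ((Vale.Agent.P243.fansR 10000 i).area /
        Vale.Agent.P243.shadow (Vale.Agent.P243.fansR 10000 i).u Vale.Agent.P243.tet) := by
    intro i
    have h5 : 0 < Vale.Agent.P243.shadow (Vale.Agent.P243.fansR 10000 i).u
        Vale.Agent.P243.tet := lt_of_lt_of_le (by positivity)
      (Vale.Agent.P243.shadow_ge _ (Vale.Agent.P243.fansR 10000 i).norm_u)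
    rw [ENNReal.ofReal_div_of_pos h5, h2 i, ← h3 i, ENNReal.ofReal_toReal]
    intro h6
    have h7 := h3 i
    rw [h6, ENNReal.toReal_top] at h7
    exact absurd h7 h5.ne
  unfold rel
  have hn : ∀ i, 0 ≤ (Vale.Agent.P243.fansR 10000 i).area /
      Vale.Agent.P243.shadow (Vale.Agent.P243.fansR 10000 i).u Vale.Agent.P243.tet :=
    fun i => div_nonneg (area_nonneg _) ENNReal.toReal_nonneg
  rw [Finset.sum_congr rfl fun i _ => h4 i, sum_ofReal hn]
  have h5 := ENNReal.ofReal_le_ofReal (Vale.Agent.P243.fansR_rel 10000 le_rfl)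
  refine h5.trans (le_of_eq ?_)
  rw [ENNReal.ofReal_div_of_pos (by norm_num)]
  norm_num

end Vale.Agent.P243D
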