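import Mathlib

/-!
# P243: cylinders in orthonormal frames

Planar areas are Lebesgue measures (`volume`) of subsets of `ℝ × ℝ`, with values in `[0, ∞]`.
-/

open MeasureTheory

namespace Vale.Agent.P243D

/-- Euclidean three-space. -/
abbrev E3 : Type := EuclideanSpace ℝ (Fin 3)

/-- Orthonormal frames `(b 0, b 1, b 2)` of `ℝ³`: `b 2` is the direction of an axis, `b 0` and `b 1`
give orthonormal coordinates in the plane orthogonal to it. -/
abbrev Frame : Type := OrthonormalBasis (Fin 3) ℝ E3

/-- The cylinder `B + ℝ u`, where `u = b 2` and the base `B` lies in the plane orthogonal to `u` and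
is described by the coordinates with respect to `b 0` and `b 1`. -/
def cyl (b : Frame) (B : Set (ℝ × ℝ)) : Set E3 :=
  {x | ∃ p ∈ B, ∃ t : ℝ, x = (p.1 • b 0 + p.2 • b 1) + t • b 2}

/-- The orthogonal projection of `K` onto the plane orthogonal to `b 2`, in the coordinates with
respect to `b 0` and `b 1`. -/
def shadow (b : Frame) (K : Set E3) : Set (ℝ × ℝ) :=
  (fun x => (inner ℝ (b 0) x, inner ℝ (b 1) x)) '' K

/-- Convex bodies: compact convex sets with nonempty interior. -/
def IsBody (K : Set E3) : Prop := IsCompact K ∧ Convex ℝ K ∧ (interior K).Nonempty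

/-- `K` is covered by the `m` cylinders with frames `b i` and bases `B i`; the bases are measurable
and have finite area. -/
def IsCover (K : Set E3) {m : ℕ} (b : Fin m → Frame) (B : Fin m → Set (ℝ × ℝ)) : Prop :=
  (∀ i, MeasurableSet (B i) ∧ volume (B i) < ⊤) ∧ K ⊆ ⋃ i, cyl (b i) (B i)

/-- The smallest area of an orthogonal projection of `K` onto a plane. -/
noncomputable def Amin (K : Set E3) : ENNReal := ⨅ b : Frame, volume (shadow b K)

/-- The directionwise relative area of a finite family of cylinders with respect to `K`. -/
noncomputable def rel (K : Set E3) {m : ℕ} (b : Fin m → Frame) (B : Fin m → Set (ℝ × ℝ)) :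
    ENNReal := ∑ i, volume (B i) / volume (shadow (b i) K)

/-- The constant `c_3`: the infimum of (total area of the bases) / `Amin K` over all convex bodies
`K` and all finite coverings of `K` by cylinders. -/
noncomputable def c3 : ENNReal :=
  ⨅ (K : Set E3) (_ : IsBody K) (m : ℕ) (b : Fin m → Frame) (B : Fin m → Set (ℝ × ℝ))
    (_ : IsCover K b B), (∑ i, volume (B i)) / Amin K

/-- The constant `r_3`: the infimum of the directionwise relative area over all convex bodies `K`
and all finite coverings of `K` by cylinders. -/
noncomputable def r3 : ENNReal :=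
  ⨅ (K : Set E3) (_ : IsBody K) (m : ℕ) (b : Fin m → Frame) (B : Fin m → Set (ℝ × ℝ))
    (_ : IsCover K b B), rel K b B

end Vale.Agent.P243D
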